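import Vale.Agent.P281.H399.QT.Quo
import Vale.Agent.P281.H83.HKT.Defs

/-!
# P281, project RADC, class C geometry (helper191): the map `ψ : E → ℂ^a × H`, definitions (FROZEN)

`S : Sheets d E K` are the sheets of `E / K`, a modification of a quotient of `ℂ^a × H` by a lattice
of translations of `ℂ^a`; `A` is the image of the exceptional set.
-/

open Set Filter Metric Vale.Agent.P272.K
open scoped Topology ContDiff Manifold

noncomputable section

namespace Vale.Agent.P281.H191.RC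

open Vale.Agent.P281.H64.TK

section
variable {d a h : ℕ} {E K H : Type} [TopologicalSpace E] [Group K] [MulAction K E]
  [TopologicalSpace H] [ChartedSpace (Cm h) H]

variable (h) in
/-- `A ⊂ ℂ^a × H` is closed, and contained in a countable union of closed sets, which are locally
contained in submanifolds of codimension two (in the charts of `H`). -/
structure Sml2 (A : Set (Cm a × H)) : Prop where
  closed : IsClosed A
  cov : ∃ N : ℕ → Set (Cm a × H), (∀ k, IsClosed (N k)) ∧ A ⊆ ⋃ k, N k ∧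
    ∀ k, ∀ q ∈ N k, ∀ e ∈ atlas (Cm h) H, q.2 ∈ e.source →
      ∃ g : Fin 2 → Cm a × Cm h → ℂ, (∀ i, AnalyticAt ℂ (g i) (q.1, e q.2)) ∧
        (Function.Surjective fun (ξ : Cm a × Cm h) (i : Fin 2) =>
          fderiv ℂ (g i) (q.1, e q.2) ξ) ∧
        ∀ᶠ r in 𝓝 (q.1, e q.2), (r.1, e.symm r.2) ∈ N k → ∀ i, g i r = 0

/-- `ψ : E → ℂ^a × H` is holomorphic, surjective, equivariant, and an isomorphism off the small set
`A`. -/
structure PsiT (S : Sheets d E K) (ψ : E → Cm a × H) (l : K → Cm a) (A : Set (Cm a × H)) :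
    Prop where
  cont : Continuous ψ
  surj : Function.Surjective ψ
  eqv : ∀ k e, ψ (k • e) = ((ψ e).1 + l k, (ψ e).2)
  inv : ∀ k q, ((q.1 + l k, q.2) ∈ A ↔ q ∈ A)
  inj : ∀ e e', ψ e = ψ e' → ψ e ∉ A → e = e'
  hol : ∀ j, ∀ z ∈ ball (0 : Cm d) 3, ∀ c ∈ atlas (Cm h) H, (ψ (S.σ j z)).2 ∈ c.source →
    AnalyticAt ℂ (fun v => ((ψ (S.σ j v)).1, c (ψ (S.σ j v)).2)) z
  nd : ∀ j, ∀ z ∈ ball (0 : Cm d) 3, ∀ c ∈ atlas (Cm h) H, (ψ (S.σ j z)).2 ∈ c.source →
    ψ (S.σ j z) ∉ A →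
    Function.Injective (fderiv ℂ (fun v => ((ψ (S.σ j v)).1, c (ψ (S.σ j v)).2)) z)
  small : Sml2 h A
  dense : ∀ j, ∀ z ∈ ball (0 : Cm d) 3, ∀ U ∈ 𝓝 z, ∃ w ∈ U, w ∈ ball (0 : Cm d) 3 ∧
    ψ (S.σ j w) ∉ A

end

end Vale.Agent.P281.H191.RC
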