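import Vale.Agent.P281.H191.HKT.Chr4
import Vale.Agent.P281.H152.RC.Spec

/-!
# P281, project RADC (helper191): R1
-/

noncomputable section

namespace Vale.Agent.P281.H191.RC

open Vale.Agent.P281.H152.RC
open Vale.Agent.P281.H83.HKT (BasTStmt)

/-- **R1** -/
theorem char (hB : BasTStmt) : CharStmt := H191.HKT.char_of hB

end Vale.Agent.P281.H191.RC
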